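import Vale.Agent.P365.T2.Gen963

/-!
# P365-T2: law errors, AvG form: from one-variable bounds to averages; Cauchy-Schwarz.
-/

set_option linter.all false

namespace Vale.Agent.P365.T2.H789

open P365L P365T1 Vale.Agent.P365.J376 P365H878 P365L.T2.Path
open Matrix Complex MeasureTheory Filter Topology Set

/-! ### Cauchy-Schwarz -/

/-- from the Young form to the square roots -/
theorem le_sqrt_mul_sqrt {S A B : ℝ} (hA : 0 ≤ A) (hB : 0 ≤ B)
    (H : ∀ c : ℝ, 0 < c → S ≤ (c * A + B / c) / 2) : S ≤ Real.sqrt A * Real.sqrt B := by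
  rcases hA.eq_or_lt with h | h
  · subst h
    simp only [Real.sqrt_zero, zero_mul]
    refine le_of_forall_pos_lt_add fun ε hε => ?_
    have h1 := H (B / ε + 1) (by positivity)
    have h2 : B / (B / ε + 1) ≤ ε := by
      rw [div_le_iff₀ (by positivity)]
      have : B / ε * ε = B := div_mul_cancel₀ _ hε.ne'
      nlinarith
    simp only [mul_zero, zero_add] at h1 ⊢
    linarith
  · rcases hB.eq_or_lt with h' | h'
    · subst h'
      simp only [Real.sqrt_zero, mul_zero]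
      refine le_of_forall_pos_lt_add fun ε hε => ?_
      have h1 := H (ε / A) (by positivity)
      have h2 : ε / A * A = ε := div_mul_cancel₀ _ h.ne'
      rw [h2, zero_div, add_zero] at h1
      linarith
    · have ha := Real.sqrt_pos.2 h
      have hb := Real.sqrt_pos.2 h'
      have h1 := H (Real.sqrt B / Real.sqrt A) (by positivity)
      have e1 : Real.sqrt B / Real.sqrt A * A = Real.sqrt A * Real.sqrt B := by
        rw [div_mul_eq_mul_div, div_eq_iff ha.ne']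
        nlinarith [Real.mul_self_sqrt h.le]
      have e2 : B / (Real.sqrt B / Real.sqrt A) = Real.sqrt A * Real.sqrt B := by
        rw [div_div_eq_mul_div, div_eq_iff hb.ne']
        nlinarith [Real.mul_self_sqrt h'.le]
      rw [e1, e2] at h1
      linarith

theorem sqrt_mul_sqrt_le {a b c : ℝ} (ha : 0 ≤ a) (hb : 0 ≤ b) (hc : 0 < c) :
    Real.sqrt a * Real.sqrt b ≤ (c * a + b / c) / 2 := by
  have h1 : Real.sqrt a * Real.sqrt b = Real.sqrt (c * a) * Real.sqrt (b / c) := by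
    rw [← Real.sqrt_mul ha, ← Real.sqrt_mul (by positivity)]
    congr 1
    field_simp
  rw [h1]
  have h2 := Real.sq_sqrt (show 0 ≤ c * a by positivity)
  have h3 := Real.sq_sqrt (show 0 ≤ b / c by positivity)
  nlinarith [sq_nonneg (Real.sqrt (c * a) - Real.sqrt (b / c))]

/-- Cauchy-Schwarz for finite families of integrals -/
theorem sum_int_sqrt_le {J : Type*} (s : Finset J) {Ω : Type*} [MeasurableSpace Ω]
    {c : J → ℝ} (hc : ∀ j ∈ s, 0 ≤ c j) {μ : J → Measure Ω} {a b : J → Ω → ℝ}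
    (ha : ∀ j ∈ s, ∀ᵐ v ∂(μ j), 0 ≤ a j v) (hb : ∀ j ∈ s, ∀ᵐ v ∂(μ j), 0 ≤ b j v)
    (ia : ∀ j ∈ s, Integrable (a j) (μ j)) (ib : ∀ j ∈ s, Integrable (b j) (μ j)) :
    ∑ j ∈ s, c j * ∫ v, Real.sqrt (a j v) * Real.sqrt (b j v) ∂(μ j) ≤
      Real.sqrt (∑ j ∈ s, c j * ∫ v, a j v ∂(μ j)) *
        Real.sqrt (∑ j ∈ s, c j * ∫ v, b j v ∂(μ j)) := by
  refine le_sqrt_mul_sqrt
    (Finset.sum_nonneg fun j hj => mul_nonneg (hc j hj) (integral_nonneg_of_ae (ha j hj)))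
    (Finset.sum_nonneg fun j hj => mul_nonneg (hc j hj) (integral_nonneg_of_ae (hb j hj)))
    fun t ht => ?_
  have h1 : ∀ j ∈ s, c j * ∫ v, Real.sqrt (a j v) * Real.sqrt (b j v) ∂(μ j) ≤
      c j * ((t * ∫ v, a j v ∂(μ j) + (∫ v, b j v ∂(μ j)) / t) / 2) := by
    intro j hj
    refine mul_le_mul_of_nonneg_left ?_ (hc j hj)
    have h2 : ∫ v, Real.sqrt (a j v) * Real.sqrt (b j v) ∂(μ j) ≤
        ∫ v, (t * a j v + b j v / t) / 2 ∂(μ j) := by
      refine integral_mono_of_nonneg (Eventually.of_forall fun v => by positivity)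
        ((((ia j hj).const_mul t).add ((ib j hj).div_const t)).div_const 2) ?_
      filter_upwards [ha j hj, hb j hj] with v h3 h4
      exact sqrt_mul_sqrt_le h3 h4 ht
    refine h2.trans (le_of_eq ?_)
    rw [integral_div, integral_add ((ia j hj).const_mul t) ((ib j hj).div_const t),
      integral_const_mul, integral_div]
  refine (Finset.sum_le_sum h1).trans (le_of_eq ?_)
  have e1 : ∀ j, c j * ((t * ∫ v, a j v ∂(μ j) + (∫ v, b j v ∂(μ j)) / t) / 2) =
      (t * (c j * ∫ v, a j v ∂(μ j)) + (c j * ∫ v, b j v ∂(μ j)) / t) / 2 := fun j => by ring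
  simp only [e1]
  rw [← Finset.sum_div, Finset.sum_add_distrib, ← Finset.mul_sum, ← Finset.sum_div]

section avg

variable {ι : Type*} [Fintype ι] [DecidableEq ι] {A : Matrix ι ι ℝ}

/-! ### one site -/

/-- **(A1), one site** -/
theorem abs_ErrF_le {m : ι → Measure ℝ} [∀ x, IsProbabilityMeasure (m x)] {R : ℝ}
    (hR : ∀ x, m x (Icc (-R) R)ᶜ = 0) {E : ℝ} {e : ι → ℝ} (he : ∀ x, 0 < e x)
    {rd : ℝ → ℝ} {F G : (ι → ℂ) → ℝ} {x : ι} (hG : ContinuousOn G (LH ι))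
    {B : (ι → ℂ) → ℝ} (hB : Integrable (fun v => B (WV E e v)) (Measure.pi m))
    (H : ∀ v, |∫ t : ℝ, rd t * HV A F x (WV E e (Function.update v x t))| ≤
      ∫ t, G (WV E e (Function.update v x t)) ∂(m x) + B (WV E e v)) :
    |ErrF A m E e rd F x| ≤ Ex m E e G + Ex m E e B := by
  have iG := integrable_resample x (integrable_of_continuousOn hG hR (E := E) he)
  have h1 : |ErrF A m E e rd F x| ≤
      ∫ v, (∫ t, G (WV E e (Function.update v x t)) ∂(m x) + B (WV E e v)) ∂(Measure.pi m) := by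
    unfold ErrF
    refine abs_integral_le_integral_abs.trans ?_
    exact integral_mono_of_nonneg (Eventually.of_forall fun v => abs_nonneg _) (iG.add hB)
      (Eventually.of_forall H)
  refine h1.trans (le_of_eq ?_)
  rw [integral_add iG hB, Ex_resample hG hR he x]
  rfl

/-- one site, a family of products of square roots in the bound: the base point is averaged with
the law of the site -/
theorem Ex_resample_sqrt {m : ι → Measure ℝ} [∀ x, IsProbabilityMeasure (m x)] {R : ℝ}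
    (hR : ∀ x, m x (Icc (-R) R)ᶜ = 0) {E : ℝ} {e : ι → ℝ} (he : ∀ x, 0 < e x)
    {G B : (ι → ℂ) → ℝ} (x : ι) (hG : ContinuousOn G (LH ι)) (hB : ContinuousOn B (LH ι)) :
    ∫ v, (∫ t, Real.sqrt (G (WV E e (Function.update v x t))) *
      Real.sqrt (B (WV E e (Function.update v x t))) ∂(m x)) ∂(Measure.pi m) =
      Ex m E e fun W => Real.sqrt (G W) * Real.sqrt (B W) :=
  (Ex_resample (G := fun W => Real.sqrt (G W) * Real.sqrt (B W))
    ((Real.continuous_sqrt.comp_continuousOn hG).mul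
      (Real.continuous_sqrt.comp_continuousOn hB)) hR he x).symm

/-! ### labels -/

variable {Λ : Type*} [Fintype Λ] {p : Λ → ℝ} {ν : Λ → Measure ℝ} {E : ℝ}

/-- sum over labels and sites of `om` times the law errors -/
noncomputable def ErrSum (A : Matrix ι ι ℝ) (p : Λ → ℝ) (ν : Λ → Measure ℝ) (E : ℝ)
    (e om : (ι → Λ) → ι → ℝ) (rd : Λ → ℝ → ℝ) (F : (ι → Λ) → (ι → ℂ) → ℝ) : ℝ :=
  ∑ l : ι → Λ, (∏ x, p (l x)) *
    ∑ x, om l x * ErrF A (fun x => ν (l x)) E (e l) (rd (l x)) (F l) x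

/-- sum over labels and sites of a family of functionals -/
noncomputable def AvS (p : Λ → ℝ) (ν : Λ → Measure ℝ) (E : ℝ) (e om : (ι → Λ) → ι → ℝ)
    (G : (ι → Λ) → ι → (ι → ℂ) → ℝ) : ℝ :=
  ∑ l : ι → Λ, (∏ x, p (l x)) * ∑ x, om l x * Ex (fun x => ν (l x)) E (e l) (G l x)

/-- **(A1)** -/
theorem abs_ErrSum_le [∀ k, IsProbabilityMeasure (ν k)] (hp : ∀ k, 0 ≤ p k) {R : ℝ}
    (hR : ∀ k, ν k (Icc (-R) R)ᶜ = 0) {e om : (ι → Λ) → ι → ℝ} (he : ∀ l x, 0 < e l x)
    (hom : ∀ l x, 0 ≤ om l x) {rd : Λ → ℝ → ℝ} {F : (ι → Λ) → (ι → ℂ) → ℝ}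
    {G B : (ι → Λ) → ι → (ι → ℂ) → ℝ} (hG : ∀ l x, om l x ≠ 0 → ContinuousOn (G l x) (LH ι))
    (hB : ∀ l x, om l x ≠ 0 →
      Integrable (fun v => B l x (WV E (e l) v)) (Measure.pi fun x => ν (l x)))
    (H : ∀ l x, om l x ≠ 0 → ∀ v,
      |∫ t : ℝ, rd (l x) t * HV A (F l) x (WV E (e l) (Function.update v x t))| ≤
      ∫ t, G l x (WV E (e l) (Function.update v x t)) ∂(ν (l x)) + B l x (WV E (e l) v)) :
    |ErrSum A p ν E e om rd F| ≤ AvS p ν E e om G + AvS p ν E e om B := by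
  unfold ErrSum AvS
  rw [← Finset.sum_add_distrib]
  refine (Finset.abs_sum_le_sum_abs _ _).trans (Finset.sum_le_sum fun l _ => ?_)
  have hpr : 0 ≤ ∏ x, p (l x) := Finset.prod_nonneg fun x _ => hp _
  rw [abs_mul, abs_of_nonneg hpr, ← mul_add, ← Finset.sum_add_distrib]
  refine mul_le_mul_of_nonneg_left ((Finset.abs_sum_le_sum_abs _ _).trans
    (Finset.sum_le_sum fun x _ => ?_)) hpr
  by_cases hx : om l x = 0
  · rw [hx]
    simp
  · rw [abs_mul, abs_of_nonneg (hom l x), ← mul_add]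
    refine mul_le_mul_of_nonneg_left ?_ (hom l x)
    exact abs_ErrF_le (fun x => hR (l x)) (he l) (hG l x hx) (hB l x hx) (H l x hx)

theorem AvS_nonneg (hp : ∀ k, 0 ≤ p k) {e om : (ι → Λ) → ι → ℝ} (he : ∀ l x, 0 < e l x)
    (hom : ∀ l x, 0 ≤ om l x) {G : (ι → Λ) → ι → (ι → ℂ) → ℝ}
    (hG : ∀ l x, ∀ W ∈ LH ι, 0 ≤ G l x W) : 0 ≤ AvS p ν E e om G :=
  Finset.sum_nonneg fun l _ => mul_nonneg (Finset.prod_nonneg fun x _ => hp _)
    (Finset.sum_nonneg fun x _ => mul_nonneg (hom l x)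
      (integral_nonneg fun v => hG l x _ (WV_mem_LH (he l) v)))

theorem AvS_mono [∀ k, IsProbabilityMeasure (ν k)] (hp : ∀ k, 0 ≤ p k) {R : ℝ}
    (hR : ∀ k, ν k (Icc (-R) R)ᶜ = 0) {e om : (ι → Λ) → ι → ℝ} (he : ∀ l x, 0 < e l x)
    (hom : ∀ l x, 0 ≤ om l x) {G G' : (ι → Λ) → ι → (ι → ℂ) → ℝ}
    (hG : ∀ l x, ContinuousOn (G l x) (LH ι)) (hG' : ∀ l x, ContinuousOn (G' l x) (LH ι))
    (H : ∀ l x, om l x ≠ 0 → ∀ W ∈ LH ι, G l x W ≤ G' l x W) :
    AvS p ν E e om G ≤ AvS p ν E e om G' := by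
  refine Finset.sum_le_sum fun l _ => mul_le_mul_of_nonneg_left (Finset.sum_le_sum fun x _ => ?_)
    (Finset.prod_nonneg fun x _ => hp _)
  by_cases hx : om l x = 0
  · rw [hx]
    simp
  · exact mul_le_mul_of_nonneg_left
      (Ex_mono_of (hG l x) (hG' l x) (fun x => hR (l x)) (he l) (H l x hx)) (hom l x)

/-- **(A2)** Cauchy-Schwarz over labels, sites, an extra finite index and potentials -/
theorem AvS_sqrt_le {κ : Type*} [Fintype κ] [∀ k, IsProbabilityMeasure (ν k)]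
    (hp : ∀ k, 0 ≤ p k) {R : ℝ} (hR : ∀ k, ν k (Icc (-R) R)ᶜ = 0) {e om : (ι → Λ) → ι → ℝ}
    (he : ∀ l x, 0 < e l x) (hom : ∀ l x, 0 ≤ om l x)
    {a b : κ → (ι → Λ) → ι → (ι → ℂ) → ℝ} (ca : ∀ k l x, ContinuousOn (a k l x) (LH ι))
    (cb : ∀ k l x, ContinuousOn (b k l x) (LH ι)) (ha : ∀ k l x, ∀ W ∈ LH ι, 0 ≤ a k l x W)
    (hb : ∀ k l x, ∀ W ∈ LH ι, 0 ≤ b k l x W) :
    ∑ k, AvS p ν E e om (fun l x W => Real.sqrt (a k l x W) * Real.sqrt (b k l x W)) ≤
      Real.sqrt (∑ k, AvS p ν E e om (a k)) * Real.sqrt (∑ k, AvS p ν E e om (b k)) := by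
  have key : ∀ g : κ → (ι → Λ) → ι → (ι → ℂ) → ℝ, ∑ k, AvS p ν E e om (g k) =
      ∑ j : κ × (ι → Λ) × ι, ((∏ x, p (j.2.1 x)) * om j.2.1 j.2.2) *
        ∫ v, g j.1 j.2.1 j.2.2 (WV E (e j.2.1) v) ∂(Measure.pi fun x => ν (j.2.1 x)) := by
    intro g
    unfold AvS Ex
    rw [Fintype.sum_prod_type]
    refine Finset.sum_congr rfl fun k _ => ?_
    rw [Fintype.sum_prod_type]
    refine Finset.sum_congr rfl fun l _ => ?_
    rw [Finset.mul_sum]
    exact Finset.sum_congr rfl fun x _ => (mul_assoc _ _ _).symm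
  rw [key (fun k l x W => Real.sqrt (a k l x W) * Real.sqrt (b k l x W)), key a, key b]
  exact sum_int_sqrt_le Finset.univ
    (c := fun j : κ × (ι → Λ) × ι => (∏ x, p (j.2.1 x)) * om j.2.1 j.2.2)
    (fun j _ => mul_nonneg (Finset.prod_nonneg fun x _ => hp _) (hom _ _))
    (μ := fun j : κ × (ι → Λ) × ι => Measure.pi fun x => ν (j.2.1 x))
    (a := fun j v => a j.1 j.2.1 j.2.2 (WV E (e j.2.1) v))
    (b := fun j v => b j.1 j.2.1 j.2.2 (WV E (e j.2.1) v))
    (fun j _ => Eventually.of_forall fun v => ha _ _ _ _ (WV_mem_LH (he _) v))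
    (fun j _ => Eventually.of_forall fun v => hb _ _ _ _ (WV_mem_LH (he _) v))
    (fun j _ => integrable_of_continuousOn (ca _ _ _) (fun x => hR _) (he _))
    (fun j _ => integrable_of_continuousOn (cb _ _ _) (fun x => hR _) (he _))

end avg

end Vale.Agent.P365.T2.H789
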