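import Vale.Agent.P365.T2.GenDef963

/-!
# P365-T2: one-variable integrals of the law error.

`∫ ρ' f` for a `C¹` density `ρ`: centred form, and 775's (ii):
if `|f v - f v₀| ≤ |v - v₀| τ v τ v₀ (al + be v₀)` on the support, then
`|∫ ρ' f| ≤ 2 L₀ C₁ l (C₀ al l + ∫ ρ τ be)`, `l = ∫_{-L₀}^{L₀} τ`.
-/

set_option linter.all false

namespace Vale.Agent.P365.T2.H789

open MeasureTheory Filter Topology Set
open P365L.T2.Path (SmLaw)

/-! ### a `C¹` density of bounded support -/

/-- raw data of a `C¹` density -/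
structure Dens (ρ ρ' : ℝ → ℝ) (L C0 C1 : ℝ) : Prop where
  L0 : 0 ≤ L
  nn : ∀ t, 0 ≤ ρ t
  le : ∀ t, ρ t ≤ C0
  c : Continuous ρ
  c' : Continuous ρ'
  hd : ∀ t, HasDerivAt ρ (ρ' t) t
  le' : ∀ t, |ρ' t| ≤ C1
  off : ∀ t, L < |t| → ρ t = 0
  off' : ∀ t, L < |t| → ρ' t = 0
  one : ∫ t, ρ t = 1

theorem off_of {ρ ρ' : ℝ → ℝ} {L : ℝ} (hd : ∀ t, HasDerivAt ρ (ρ' t) t)
    (off : ∀ t, L < |t| → ρ t = 0) (v : ℝ) (hv : L < |v|) : ρ' v = 0 := by
  have h1 : ∀ᶠ u in 𝓝 v, ρ u = 0 := by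
    have h2 : ∀ᶠ u in 𝓝 v, L < |u| :=
      (continuous_abs.continuousAt).eventually (lt_mem_nhds hv)
    filter_upwards [h2] with u hu
    exact off u hu
  have h3 : HasDerivAt ρ 0 v := (hasDerivAt_const v (0 : ℝ)).congr_of_eventuallyEq h1
  exact (hd v).unique h3

theorem hasCompactSupport_of_off {f : ℝ → ℝ} {L : ℝ} (hf : ∀ v, L < |v| → f v = 0) :
    HasCompactSupport f := by
  refine HasCompactSupport.intro (K := Icc (-L) L) isCompact_Icc fun v hv => ?_
  refine hf v ?_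
  by_contra hc
  push Not at hc
  exact hv (abs_le.1 hc)

variable {ρ ρ' : ℝ → ℝ} {L C0 C1 : ℝ}

theorem Dens.integrable_mul (h : Dens ρ ρ' L C0 C1) {g : ℝ → ℝ} (hg : Continuous g) :
    Integrable fun t => ρ t * g t :=
  (h.c.mul hg).integrable_of_hasCompactSupport
    (hasCompactSupport_of_off (L := L) fun v hv => by
      show ρ v * g v = 0
      rw [h.off v hv, zero_mul])

theorem Dens.integrable_mul' (h : Dens ρ ρ' L C0 C1) {g : ℝ → ℝ} (hg : Continuous g) :
    Integrable fun t => ρ' t * g t :=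
  (h.c'.mul hg).integrable_of_hasCompactSupport
    (hasCompactSupport_of_off (L := L) fun v hv => by
      show ρ' v * g v = 0
      rw [h.off' v hv, zero_mul])

/-- integration by parts: `∫ ρ g' = - ∫ ρ' g` -/
theorem Dens.ibp (h : Dens ρ ρ' L C0 C1) {g g' : ℝ → ℝ} (hg : ∀ v, HasDerivAt g (g' v) v)
    (hc : Continuous g') : ∫ v, ρ' v * g v = -∫ v, ρ v * g' v := by
  have cg : Continuous g := continuous_iff_continuousAt.2 fun v => (hg v).continuousAt
  have h1 := integral_mul_deriv_eq_deriv_mul_of_integrable (fun v _ => h.hd v)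
    (fun v _ => hg v) (h.integrable_mul hc) (h.integrable_mul' cg) (h.integrable_mul cg)
  linarith

theorem Dens.integral_deriv (h : Dens ρ ρ' L C0 C1) : ∫ v, ρ' v = 0 := by
  have h1 := h.ibp (g := fun _ => (1 : ℝ)) (g' := fun _ => 0)
    (fun v => hasDerivAt_const v 1) continuous_const
  simpa using h1

theorem Dens.C1_nonneg (h : Dens ρ ρ' L C0 C1) : 0 ≤ C1 := (abs_nonneg _).trans (h.le' 0)

theorem Dens.C0_nonneg (h : Dens ρ ρ' L C0 C1) : 0 ≤ C0 := (h.nn 0).trans (h.le 0)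

/-- subtracting a constant -/
theorem Dens.sub_const (h : Dens ρ ρ' L C0 C1) {f : ℝ → ℝ} (hf : Continuous f) (k : ℝ) :
    ∫ v, ρ' v * f v = ∫ v, ρ' v * (f v - k) := by
  have h1 : ∀ v, ρ' v * (f v - k) = ρ' v * f v - ρ' v * k := fun v => by ring
  simp only [h1]
  rw [integral_sub (h.integrable_mul' hf) (h.integrable_mul' continuous_const),
    integral_mul_const, h.integral_deriv, zero_mul, sub_zero]

/-- centred bound with a fixed constant -/
theorem Dens.abs_le_sub (h : Dens ρ ρ' L C0 C1) {f : ℝ → ℝ} (hf : Continuous f) (k : ℝ) :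
    |∫ v, ρ' v * f v| ≤ ∫ v, |ρ' v| * |f v - k| := by
  rw [h.sub_const hf k]
  refine (abs_integral_le_integral_abs).trans (le_of_eq ?_)
  congr 1
  funext v
  exact abs_mul _ _

/-- centred bound, base point averaged with the law -/
theorem Dens.abs_le_avg (h : Dens ρ ρ' L C0 C1) {f : ℝ → ℝ} (hf : Continuous f) :
    |∫ v, ρ' v * f v| ≤ ∫ v₀, ρ v₀ * |∫ v, ρ' v * (f v - f v₀)| := by
  have h1 : |∫ v, ρ' v * f v| = ∫ v₀, ρ v₀ * |∫ v, ρ' v * (f v - f v₀)| := by
    have h2 : ∀ v₀, ρ v₀ * |∫ v, ρ' v * (f v - f v₀)| = ρ v₀ * |∫ v, ρ' v * f v| := by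
      intro v₀
      rw [← h.sub_const hf (f v₀)]
    simp only [h2]
    rw [integral_mul_const, h.one, one_mul]
  exact h1.le

/-- the inner integral -/
theorem Dens.inner_le (h : Dens ρ ρ' L C0 C1) {f τ : ℝ → ℝ} (hf : Continuous f)
    (hτ : Continuous τ) (hτ0 : ∀ t, 0 ≤ τ t) {v₀ b : ℝ} (hv₀ : |v₀| ≤ L) (hb : 0 ≤ b)
    (H : ∀ v, |v| ≤ L → |f v - f v₀| ≤ |v - v₀| * (τ v * τ v₀) * b) :
    |∫ v, ρ' v * (f v - f v₀)| ≤
      2 * L * C1 * (∫ t in (-L)..L, τ t) * (τ v₀ * b) := by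
  have hC := h.C1_nonneg
  have hL := h.L0
  have e1 : ∫ v, ρ' v * (f v - f v₀) = ∫ v in Icc (-L) L, ρ' v * (f v - f v₀) := by
    refine (setIntegral_eq_integral_of_forall_compl_eq_zero fun v hv => ?_).symm
    have : L < |v| := by
      by_contra hc
      push Not at hc
      exact hv (abs_le.1 hc)
    rw [h.off' v this, zero_mul]
  have e2 : ∫ t in (-L)..L, τ t = ∫ t in Icc (-L) L, τ t := by
    rw [intervalIntegral.integral_of_le (by linarith), integral_Icc_eq_integral_Ioc]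
  rw [e1, e2, ← Real.norm_eq_abs]
  have h1 : ‖∫ v in Icc (-L) L, ρ' v * (f v - f v₀)‖ ≤
      ∫ v in Icc (-L) L, 2 * L * C1 * (τ v * (τ v₀ * b)) := by
    refine norm_integral_le_of_norm_le ?_ ?_
    · exact (continuous_const.mul (hτ.mul continuous_const)).continuousOn.integrableOn_Icc
    · refine (ae_restrict_iff' measurableSet_Icc).2 (Eventually.of_forall fun v hv => ?_)
      have hv' : |v| ≤ L := abs_le.2 hv
      rw [Real.norm_eq_abs, abs_mul]
      have h2 := H v hv'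
      have h3 : |v - v₀| ≤ 2 * L := (abs_sub _ _).trans (by linarith)
      have h4 := h.le' v
      have h5 : 0 ≤ τ v * τ v₀ := mul_nonneg (hτ0 v) (hτ0 v₀)
      calc |ρ' v| * |f v - f v₀| ≤ C1 * (|v - v₀| * (τ v * τ v₀) * b) :=
            mul_le_mul h4 h2 (abs_nonneg _) hC
        _ ≤ C1 * (2 * L * (τ v * τ v₀) * b) := by gcongr
        _ = _ := by ring
  refine h1.trans (le_of_eq ?_)
  rw [integral_const_mul, integral_mul_const]
  ring

/-- **775's (ii)** -/
theorem Dens.int_le (h : Dens ρ ρ' L C0 C1) {f τ be : ℝ → ℝ} {al : ℝ} (hf : Continuous f)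
    (hτ : Continuous τ) (hbe : Continuous be) (hτ0 : ∀ t, 0 ≤ τ t) (hbe0 : ∀ t, 0 ≤ be t)
    (hal : 0 ≤ al)
    (H : ∀ v v₀, |v| ≤ L → |v₀| ≤ L →
      |f v - f v₀| ≤ |v - v₀| * (τ v * τ v₀) * (al + be v₀)) :
    |∫ v, ρ' v * f v| ≤ 2 * L * C1 * (∫ t in (-L)..L, τ t) *
      (C0 * al * (∫ t in (-L)..L, τ t) + ∫ t, ρ t * (τ t * be t)) := by
  have hL := h.L0
  have hC := h.C1_nonneg
  have hl : 0 ≤ ∫ t in (-L)..L, τ t :=
    intervalIntegral.integral_nonneg (by linarith) fun t _ => hτ0 t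
  set l : ℝ := ∫ t in (-L)..L, τ t with hldef
  refine (h.abs_le_avg hf).trans ?_
  have i1 : Integrable fun t => ρ t * τ t := h.integrable_mul hτ
  have i2 : Integrable fun t => ρ t * (τ t * be t) := h.integrable_mul (hτ.mul hbe)
  have h1 : ∫ v₀, ρ v₀ * |∫ v, ρ' v * (f v - f v₀)| ≤
      ∫ v₀, 2 * L * C1 * l * (al * (ρ v₀ * τ v₀) + ρ v₀ * (τ v₀ * be v₀)) := by
    refine integral_mono ?_ (((i1.const_mul al).add i2).const_mul _) fun v₀ => ?_
    · have h2 : ∀ v₀, ρ v₀ * |∫ v, ρ' v * (f v - f v₀)| = ρ v₀ * |∫ v, ρ' v * f v| := by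
        intro v₀
        rw [← h.sub_const hf (f v₀)]
      simp only [h2]
      exact h.integrable_mul continuous_const
    · by_cases hv : |v₀| ≤ L
      · have h3 := h.inner_le hf hτ hτ0 hv (add_nonneg hal (hbe0 v₀))
          fun v hv' => H v v₀ hv' hv
        have h4 := mul_le_mul_of_nonneg_left h3 (h.nn v₀)
        refine h4.trans (le_of_eq ?_)
        simp only [← hldef]
        ring
      · have h3 := h.off v₀ (not_le.1 hv)
        simp only [h3, zero_mul, mul_zero, add_zero, le_refl]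
  refine h1.trans ?_
  rw [integral_const_mul, integral_add (i1.const_mul al) i2, integral_const_mul]
  have h5 : ∫ t, ρ t * τ t ≤ C0 * l := by
    have e1 : ∫ t, ρ t * τ t = ∫ t in Icc (-L) L, ρ t * τ t := by
      refine (setIntegral_eq_integral_of_forall_compl_eq_zero fun v hv => ?_).symm
      have : L < |v| := by
        by_contra hc
        push Not at hc
        exact hv (abs_le.1 hc)
      rw [h.off v this, zero_mul]
    have e2 : l = ∫ t in Icc (-L) L, τ t := by
      rw [hldef, intervalIntegral.integral_of_le (by linarith), integral_Icc_eq_integral_Ioc]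
    rw [e1, e2, ← integral_const_mul]
    refine integral_mono (h.c.mul hτ).continuousOn.integrableOn_Icc
      (continuous_const.mul hτ).continuousOn.integrableOn_Icc fun t => ?_
    exact mul_le_mul_of_nonneg_right (h.le t) (hτ0 t)
  have h6 := mul_le_mul_of_nonneg_left h5 hal
  have h7 : 0 ≤ 2 * L * C1 * l := by positivity
  refine mul_le_mul_of_nonneg_left ?_ h7
  linarith

/-- **vector form of the base point**: `|f v - f v₀| ≤ |v - v₀| τ v τ v₀ be v₀` only -/
theorem Dens.int_le' (h : Dens ρ ρ' L C0 C1) {f τ be : ℝ → ℝ} (hf : Continuous f)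
    (hτ : Continuous τ) (hbe : Continuous be) (hτ0 : ∀ t, 0 ≤ τ t) (hbe0 : ∀ t, 0 ≤ be t)
    (H : ∀ v v₀, |v| ≤ L → |v₀| ≤ L → |f v - f v₀| ≤ |v - v₀| * (τ v * τ v₀) * be v₀) :
    |∫ v, ρ' v * f v| ≤ 2 * L * C1 * (∫ t in (-L)..L, τ t) * ∫ t, ρ t * (τ t * be t) := by
  have h1 := h.int_le hf hτ hbe hτ0 hbe0 le_rfl (al := 0) (by simpa using H)
  simpa using h1

/-! ### laws -/

/-- the raw data of a `SmLaw` carried by `[-L, L]` -/
theorem dens_of_smLaw {μ : Measure ℝ} [IsProbabilityMeasure μ] (h : SmLaw μ ρ ρ')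
    (hL : 0 ≤ L) (off : ∀ t, L < |t| → ρ t = 0) (h0 : ∀ t, ρ t ≤ C0) (h1 : ∀ t, |ρ' t| ≤ C1) :
    Dens ρ ρ' L C0 C1 where
  L0 := hL
  nn := h.nonneg
  le := h0
  c := continuous_iff_continuousAt.2 fun v => (h.hd v).continuousAt
  c' := h.cont
  hd := h.hd
  le' := h1
  off := off
  off' := off_of h.hd off
  one := by
    have hc : Continuous ρ := continuous_iff_continuousAt.2 fun v => (h.hd v).continuousAt
    have hi : Integrable ρ := hc.integrable_of_hasCompactSupport (hasCompactSupport_of_off off)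
    have h2 : μ univ = 1 := measure_univ
    rw [h.eq, withDensity_apply _ MeasurableSet.univ, Measure.restrict_univ,
      ← ofReal_integral_eq_lintegral_ofReal hi (Eventually.of_forall h.nonneg)] at h2
    have h3 : 0 ≤ ∫ t, ρ t := integral_nonneg h.nonneg
    have h4 := congrArg ENNReal.toReal h2
    rwa [ENNReal.toReal_ofReal h3, ENNReal.toReal_one] at h4

/-- integral against the law -/
theorem smLaw_integral {μ : Measure ℝ} (h : SmLaw μ ρ ρ') (g : ℝ → ℝ) :
    ∫ v, g v ∂μ = ∫ v, ρ v * g v := by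
  have hc : Continuous ρ := continuous_iff_continuousAt.2 fun v => (h.hd v).continuousAt
  rw [h.eq, integral_withDensity_eq_integral_toReal_smul hc.measurable.ennreal_ofReal
    (Eventually.of_forall fun _ => ENNReal.ofReal_lt_top)]
  refine integral_congr_ae (Eventually.of_forall fun v => ?_)
  simp only [ENNReal.toReal_ofReal (h.nonneg v), smul_eq_mul]

end Vale.Agent.P365.T2.H789
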