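import Vale.Agent.P365.J376.DiffEn
import Vale.Agent.P365.L4.Budget
import Vale.Agent.P365.T1a.Cost

/-!
# P365-T2, X-GEN2: the one-site generator, calculus.

`HasGen A z Ψ th de ll`: along the line of the potential of `z` the functional `Ψ` has
derivative `2 m_z th`, `th` has derivative `de + ll / e_z`, and `de` is the derivative of `Ψ` in
the absorption `e_z`.  So `ll = - e_z de + e_z d_v th = LL_z Ψ` (292's generator).
-/

set_option linter.all false

namespace Vale.Agent.P365.T2.H789

open P365L P365O P365T1 Matrix Complex MeasureTheory Filter Topology Set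
open scoped ComplexConjugate

/-- lower half plane -/
def Hm (ι : Type*) : Set (ι → ℂ) := {W | ∀ x, (W x).im < 0}

theorem isOpen_Hm {ι : Type*} [Finite ι] : IsOpen (Hm ι) := by
  have h : Hm ι = ⋂ x, {W : ι → ℂ | (W x).im < 0} := by
    ext W
    simp [Hm]
  rw [h]
  exact isOpen_iInter_of_finite fun x =>
    isOpen_lt (Complex.continuous_im.comp (continuous_apply x)) continuous_const

variable {ι : Type*} [DecidableEq ι]

/-- absorption `t` at `z`, same real part -/
noncomputable def imz (W : ι → ℂ) (z : ι) (t : ℝ) : ι → ℂ :=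
  Function.update W z (((W z).re : ℂ) - (t : ℂ) * I)

theorem rez_self (W : ι → ℂ) (z : ι) : rez W z (W z).re = W := by
  unfold rez
  rw [Complex.re_add_im, Function.update_eq_self]

theorem imz_self (W : ι → ℂ) (z : ι) : imz W z (-(W z).im) = W := by
  unfold imz
  have : (((W z).re : ℂ) - ((-(W z).im : ℝ) : ℂ) * I) = W z := by
    conv_rhs => rw [← Complex.re_add_im (W z)]
    push_cast
    ring
  rw [this, Function.update_eq_self]

theorem rez_at (W : ι → ℂ) (z : ι) (u : ℝ) : rez W z u z = (u : ℂ) + ((W z).im : ℂ) * I :=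
  Function.update_self ..

theorem rez_at_re (W : ι → ℂ) (z : ι) (u : ℝ) : (rez W z u z).re = u := by
  rw [rez_at]; simp

theorem rez_at_im (W : ι → ℂ) (z : ι) (u : ℝ) : (rez W z u z).im = (W z).im := by
  rw [rez_at]; simp

theorem rez_of_ne (W : ι → ℂ) {x z : ι} (h : x ≠ z) (u : ℝ) : rez W z u x = W x :=
  Function.update_of_ne h ..

theorem rez_rez (W : ι → ℂ) (z : ι) (u u' : ℝ) : rez (rez W z u) z u' = rez W z u' := by
  have h := rez_at_im W z u
  unfold rez at h ⊢
  rw [h, Function.update_idem]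

theorem imz_at (W : ι → ℂ) (z : ι) (t : ℝ) : imz W z t z = ((W z).re : ℂ) - (t : ℂ) * I :=
  Function.update_self ..

theorem imz_at_re (W : ι → ℂ) (z : ι) (t : ℝ) : (imz W z t z).re = (W z).re := by
  rw [imz_at]; simp

theorem imz_at_im (W : ι → ℂ) (z : ι) (t : ℝ) : (imz W z t z).im = -t := by
  rw [imz_at]; simp

theorem imz_of_ne (W : ι → ℂ) {x z : ι} (h : x ≠ z) (t : ℝ) : imz W z t x = W x :=
  Function.update_of_ne h ..

theorem imz_imz (W : ι → ℂ) (z : ι) (t t' : ℝ) : imz (imz W z t) z t' = imz W z t' := by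
  have h := imz_at_re W z t
  unfold imz at h ⊢
  rw [h, Function.update_idem]

theorem rez_mem {W : ι → ℂ} (hW : W ∈ Hm ι) (z : ι) (u : ℝ) : rez W z u ∈ Hm ι := by
  intro x
  by_cases h : x = z
  · subst h
    rw [rez_at_im]
    exact hW x
  · rw [rez_of_ne W h]
    exact hW x

theorem imz_mem {W : ι → ℂ} (hW : W ∈ Hm ι) (z : ι) {t : ℝ} (ht : 0 < t) :
    imz W z t ∈ Hm ι := by
  intro x
  by_cases h : x = z
  · subst h
    rw [imz_at_im]
    linarith
  · rw [imz_of_ne W h]
    exact hW x

theorem continuous_rez (W : ι → ℂ) (z : ι) : Continuous fun u : ℝ => rez W z u := by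
  unfold rez
  exact continuous_const.update z (Complex.continuous_ofReal.add continuous_const)

theorem continuous_imz (W : ι → ℂ) (z : ι) : Continuous fun t : ℝ => imz W z t := by
  unfold imz
  exact continuous_const.update z
    (continuous_const.sub (Complex.continuous_ofReal.mul continuous_const))

theorem ab_pos {W : ι → ℂ} (hW : W ∈ Hm ι) (z : ι) : 0 < -(W z).im := by
  linarith [hW z]

variable [Fintype ι] {A : Matrix ι ι ℝ}
  {F : Type*} [NormedAddCommGroup F] [NormedSpace ℝ F]

/-- `Ψ` has the angular derivative `th`, the absorption derivative `de` and the generator `ll`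
at the site `z` -/
structure HasGen (A : Matrix ι ι ℝ) (z : ι) (Ψ th de ll : (ι → ℂ) → F) : Prop where
  hv : ∀ W ∈ Hm ι, HasDerivAt (fun u : ℝ => Ψ (rez W z u)) ((2 * mm A W z) • th W) (W z).re
  he : ∀ W ∈ Hm ι, HasDerivAt (fun t : ℝ => Ψ (imz W z t)) (de W) (-(W z).im)
  ht : ∀ W ∈ Hm ι,
    HasDerivAt (fun u : ℝ => th (rez W z u)) (de W + (-(W z).im)⁻¹ • ll W) (W z).re
  cp : ContinuousOn Ψ (Hm ι)
  ct : ContinuousOn th (Hm ι)
  ce : ContinuousOn de (Hm ι)
  cl : ContinuousOn ll (Hm ι)

namespace HasGen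

variable {z : ι} {Ψ th de ll Ψ' th' de' ll' : (ι → ℂ) → F}

theorem congr (h : HasGen A z Ψ th de ll) (h1 : ∀ W ∈ Hm ι, Ψ' W = Ψ W)
    (h2 : ∀ W ∈ Hm ι, th' W = th W) (h3 : ∀ W ∈ Hm ι, de' W = de W)
    (h4 : ∀ W ∈ Hm ι, ll' W = ll W) : HasGen A z Ψ' th' de' ll' where
  hv W hW := by
    have e : (fun u : ℝ => Ψ' (rez W z u)) = fun u => Ψ (rez W z u) :=
      funext fun u => h1 _ (rez_mem hW z u)
    rw [e, h2 W hW]
    exact h.hv W hW
  he W hW := by
    rw [h3 W hW]
    refine (h.he W hW).congr_of_eventuallyEq ?_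
    have h5 : ∀ᶠ t : ℝ in 𝓝 (-(W z).im), 0 < t := lt_mem_nhds (ab_pos hW z)
    filter_upwards [h5] with t ht
    exact h1 _ (imz_mem hW z ht)
  ht W hW := by
    have e : (fun u : ℝ => th' (rez W z u)) = fun u => th (rez W z u) :=
      funext fun u => h2 _ (rez_mem hW z u)
    rw [e, h3 W hW, h4 W hW]
    exact h.ht W hW
  cp := h.cp.congr h1
  ct := h.ct.congr h2
  ce := h.ce.congr h3
  cl := h.cl.congr h4

theorem const (A : Matrix ι ι ℝ) (z : ι) (c : F) :
    HasGen A z (fun _ => c) (fun _ => 0) (fun _ => 0) (fun _ => 0) where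
  hv W hW := by
    rw [smul_zero]
    exact hasDerivAt_const _ _
  he W hW := hasDerivAt_const _ _
  ht W hW := by
    rw [smul_zero, add_zero]
    exact hasDerivAt_const _ _
  cp := continuousOn_const
  ct := continuousOn_const
  ce := continuousOn_const
  cl := continuousOn_const

theorem add (h : HasGen A z Ψ th de ll) (h' : HasGen A z Ψ' th' de' ll') :
    HasGen A z (fun W => Ψ W + Ψ' W) (fun W => th W + th' W) (fun W => de W + de' W)
      (fun W => ll W + ll' W) where
  hv W hW := by
    rw [smul_add]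
    exact (h.hv W hW).fun_add (h'.hv W hW)
  he W hW := (h.he W hW).fun_add (h'.he W hW)
  ht W hW := by
    have h1 := (h.ht W hW).fun_add (h'.ht W hW)
    rw [smul_add]
    refine h1.congr_deriv ?_
    abel
  cp := h.cp.add h'.cp
  ct := h.ct.add h'.ct
  ce := h.ce.add h'.ce
  cl := h.cl.add h'.cl

/-- continuous linear images -/
theorem clm {F' : Type*} [NormedAddCommGroup F'] [NormedSpace ℝ F'] (L : F →L[ℝ] F')
    (h : HasGen A z Ψ th de ll) :
    HasGen A z (fun W => L (Ψ W)) (fun W => L (th W)) (fun W => L (de W))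
      (fun W => L (ll W)) where
  hv W hW := by
    rw [← L.map_smul]
    exact L.hasFDerivAt.comp_hasDerivAt (W z).re (h.hv W hW)
  he W hW := L.hasFDerivAt.comp_hasDerivAt (-(W z).im) (h.he W hW)
  ht W hW := by
    rw [← L.map_smul, ← L.map_add]
    exact L.hasFDerivAt.comp_hasDerivAt (W z).re (h.ht W hW)
  cp := L.continuous.comp_continuousOn h.cp
  ct := L.continuous.comp_continuousOn h.ct
  ce := L.continuous.comp_continuousOn h.ce
  cl := L.continuous.comp_continuousOn h.cl

theorem smul (c : ℝ) (h : HasGen A z Ψ th de ll) :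
    HasGen A z (fun W => c • Ψ W) (fun W => c • th W) (fun W => c • de W)
      (fun W => c • ll W) := by
  have h1 := h.clm (c • ContinuousLinearMap.id ℝ F)
  simpa using h1

theorem neg (h : HasGen A z Ψ th de ll) :
    HasGen A z (fun W => -Ψ W) (fun W => -th W) (fun W => -de W) (fun W => -ll W) := by
  have h1 := h.smul (-1)
  simpa using h1

theorem sub (h : HasGen A z Ψ th de ll) (h' : HasGen A z Ψ' th' de' ll') :
    HasGen A z (fun W => Ψ W - Ψ' W) (fun W => th W - th' W) (fun W => de W - de' W)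
      (fun W => ll W - ll' W) := by
  have h1 := h.add h'.neg
  simpa [sub_eq_add_neg] using h1

theorem sum {κ : Type*} (s : Finset κ) {P T D L : κ → (ι → ℂ) → F}
    (h : ∀ k ∈ s, HasGen A z (P k) (T k) (D k) (L k)) :
    HasGen A z (fun W => ∑ k ∈ s, P k W) (fun W => ∑ k ∈ s, T k W) (fun W => ∑ k ∈ s, D k W)
      (fun W => ∑ k ∈ s, L k W) := by
  classical
  induction s using Finset.induction_on with
  | empty => simpa using const A z (0 : F)
  | insert a s ha ih =>
    have h1 := (h a (Finset.mem_insert_self a s)).add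
      (ih fun k hk => h k (Finset.mem_insert_of_mem hk))
    simpa [Finset.sum_insert ha] using h1

end HasGen

/-! ### real valued functionals -/

namespace HasGen

variable {z : ι} {Ψ th de ll Ψ' th' de' ll' : (ι → ℂ) → ℝ}

theorem Cts_mmOn (hA : A.IsSymm) (x : ι) : ContinuousOn (fun W => mm A W x) (Hm ι) := fun W hW =>
  (P365L.FIN.Cts_mm hA x W hW).continuousWithinAt

theorem cab (x : ι) : ContinuousOn (fun W : ι → ℂ => -(W x).im) (Hm ι) :=
  ((Complex.continuous_im.comp (continuous_apply x)).neg).continuousOn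

/-- product rule -/
theorem mul (hA : A.IsSymm) (h : HasGen A z Ψ th de ll) (h' : HasGen A z Ψ' th' de' ll') :
    HasGen A z (fun W => Ψ W * Ψ' W) (fun W => Ψ W * th' W + Ψ' W * th W)
      (fun W => Ψ W * de' W + Ψ' W * de W)
      (fun W => Ψ W * ll' W + Ψ' W * ll W +
        4 * (-(W z).im) * mm A W z * (th W * th' W)) where
  hv W hW := by
    have h1 := (h.hv W hW).fun_mul (h'.hv W hW)
    simp only [rez_self, smul_eq_mul] at h1
    refine h1.congr_deriv ?_
    rw [smul_eq_mul]
    ring
  he W hW := by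
    have h1 := (h.he W hW).fun_mul (h'.he W hW)
    simp only [imz_self] at h1
    refine h1.congr_deriv ?_
    ring
  ht W hW := by
    have h1 := ((h.hv W hW).fun_mul (h'.ht W hW)).fun_add ((h'.hv W hW).fun_mul (h.ht W hW))
    simp only [rez_self, smul_eq_mul] at h1
    refine h1.congr_deriv ?_
    rw [smul_eq_mul]
    have h2 : (W z).im ≠ 0 := (hW z).ne
    field_simp
    ring
  cp := h.cp.mul h'.cp
  ct := (h.cp.mul h'.ct).add (h'.cp.mul h.ct)
  ce := (h.cp.mul h'.ce).add (h'.cp.mul h.ce)
  cl := ((h.cp.mul h'.cl).add (h'.cp.mul h.cl)).add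
    (((continuousOn_const.mul (cab z)).mul (Cts_mmOn hA z)).mul (h.ct.mul h'.ct))

/-- chain rule in one variable -/
theorem comp (hA : A.IsSymm) (h : HasGen A z Ψ th de ll) {φ φ1 φ2 : ℝ → ℝ}
    (h1 : ∀ W ∈ Hm ι, HasDerivAt φ (φ1 (Ψ W)) (Ψ W))
    (h2 : ∀ W ∈ Hm ι, HasDerivAt φ1 (φ2 (Ψ W)) (Ψ W))
    (h3 : ContinuousOn (fun W => φ2 (Ψ W)) (Hm ι)) :
    HasGen A z (fun W => φ (Ψ W)) (fun W => φ1 (Ψ W) * th W) (fun W => φ1 (Ψ W) * de W)
      (fun W => φ1 (Ψ W) * ll W +
        2 * (-(W z).im) * mm A W z * (φ2 (Ψ W) * th W ^ 2)) := by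
  have c1 : ContinuousOn (fun W => φ1 (Ψ W)) (Hm ι) := fun W hW =>
    (h2 W hW).continuousAt.comp_continuousWithinAt (h.cp W hW)
  refine
  { hv := fun W hW => ?_
    he := fun W hW => ?_
    ht := fun W hW => ?_
    cp := fun W hW => (h1 W hW).continuousAt.comp_continuousWithinAt (h.cp W hW)
    ct := c1.mul h.ct
    ce := c1.mul h.ce
    cl := (c1.mul h.cl).add
      (((continuousOn_const.mul (cab z)).mul (Cts_mmOn hA z)).mul (h3.mul (h.ct.pow 2))) }
  · have h4 : HasDerivAt φ (φ1 (Ψ W)) (Ψ (rez W z (W z).re)) := by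
      rw [rez_self]
      exact h1 W hW
    have h5 := h4.comp (W z).re (h.hv W hW)
    refine h5.congr_deriv ?_
    rw [smul_eq_mul, smul_eq_mul]
    ring
  · have h4 : HasDerivAt φ (φ1 (Ψ W)) (Ψ (imz W z (-(W z).im))) := by
      rw [imz_self]
      exact h1 W hW
    exact h4.comp (-(W z).im) (h.he W hW)
  · have h4 : HasDerivAt φ1 (φ2 (Ψ W)) (Ψ (rez W z (W z).re)) := by
      rw [rez_self]
      exact h2 W hW
    have h5 := (h4.comp (W z).re (h.hv W hW)).fun_mul (h.ht W hW)
    simp only [Function.comp_apply, rez_self, smul_eq_mul] at h5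
    refine h5.congr_deriv ?_
    rw [smul_eq_mul]
    have h6 : (W z).im ≠ 0 := (hW z).ne
    field_simp
    ring

/-- perspective `M φ(N / M)` -/
theorem persp (hA : A.IsSymm) {N tN dN lN M tM dM lM : (ι → ℂ) → ℝ}
    (hN : HasGen A z N tN dN lN) (hM : HasGen A z M tM dM lM) (hM0 : ∀ W ∈ Hm ι, 0 < M W)
    {φ φ1 φ2 : ℝ → ℝ}
    (h1 : ∀ W ∈ Hm ι, HasDerivAt φ (φ1 (N W / M W)) (N W / M W))
    (h2 : ∀ W ∈ Hm ι, HasDerivAt φ1 (φ2 (N W / M W)) (N W / M W))
    (h3 : ContinuousOn (fun W => φ2 (N W / M W)) (Hm ι)) :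
    HasGen A z (fun W => M W * φ (N W / M W))
      (fun W => φ1 (N W / M W) * tN W +
        (φ (N W / M W) - N W / M W * φ1 (N W / M W)) * tM W)
      (fun W => φ1 (N W / M W) * dN W +
        (φ (N W / M W) - N W / M W * φ1 (N W / M W)) * dM W)
      (fun W => φ1 (N W / M W) * lN W +
        (φ (N W / M W) - N W / M W * φ1 (N W / M W)) * lM W +
        2 * (-(W z).im) * mm A W z *
          (φ2 (N W / M W) * ((tN W - N W / M W * tM W) ^ 2 / M W))) := by
  have hne : ∀ W ∈ Hm ι, M W ≠ 0 := fun W hW => (hM0 W hW).ne'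
  have cu : ContinuousOn (fun W => N W / M W) (Hm ι) := hN.cp.div hM.cp hne
  have c0 : ContinuousOn (fun W => φ (N W / M W)) (Hm ι) := fun W hW =>
    (h1 W hW).continuousAt.comp_continuousWithinAt (f := fun W => N W / M W) (cu W hW)
  have c1 : ContinuousOn (fun W => φ1 (N W / M W)) (Hm ι) := fun W hW =>
    (h2 W hW).continuousAt.comp_continuousWithinAt (f := fun W => N W / M W) (cu W hW)
  have cc : ContinuousOn (fun W => φ (N W / M W) - N W / M W * φ1 (N W / M W)) (Hm ι) :=
    c0.sub (cu.mul c1)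
  -- the quotient
  have hu : ∀ W ∈ Hm ι, HasDerivAt (fun u : ℝ => N (rez W z u) / M (rez W z u))
      (2 * mm A W z * (tN W - N W / M W * tM W) / M W) (W z).re := by
    intro W hW
    have h4 := (hN.hv W hW).fun_div (hM.hv W hW) (by rw [rez_self]; exact hne W hW)
    simp only [rez_self, smul_eq_mul] at h4
    refine h4.congr_deriv ?_
    have := hne W hW
    field_simp
  have hue : ∀ W ∈ Hm ι, HasDerivAt (fun t : ℝ => N (imz W z t) / M (imz W z t))
      ((dN W - N W / M W * dM W) / M W) (-(W z).im) := by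
    intro W hW
    have h4 := (hN.he W hW).fun_div (hM.he W hW) (by rw [imz_self]; exact hne W hW)
    simp only [imz_self] at h4
    refine h4.congr_deriv ?_
    have := hne W hW
    field_simp
  refine
  { hv := fun W hW => ?_
    he := fun W hW => ?_
    ht := fun W hW => ?_
    cp := hM.cp.mul c0
    ct := (c1.mul hN.ct).add (cc.mul hM.ct)
    ce := (c1.mul hN.ce).add (cc.mul hM.ce)
    cl := ((c1.mul hN.cl).add (cc.mul hM.cl)).add
      (((continuousOn_const.mul (cab z)).mul (Cts_mmOn hA z)).mul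
        (h3.mul (((hN.ct.sub (cu.mul hM.ct)).pow 2).div hM.cp hne))) }
  · have h4 : HasDerivAt φ (φ1 (N W / M W)) (N (rez W z (W z).re) / M (rez W z (W z).re)) := by
      rw [rez_self]
      exact h1 W hW
    have h5 := (hM.hv W hW).fun_mul (h4.comp (W z).re (hu W hW))
    simp only [Function.comp_apply, rez_self, smul_eq_mul] at h5
    refine h5.congr_deriv ?_
    rw [smul_eq_mul]
    have := hne W hW
    field_simp
    ring
  · have h4 : HasDerivAt φ (φ1 (N W / M W))
        (N (imz W z (-(W z).im)) / M (imz W z (-(W z).im))) := by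
      rw [imz_self]
      exact h1 W hW
    have h5 := (hM.he W hW).fun_mul (h4.comp (-(W z).im) (hue W hW))
    simp only [Function.comp_apply, imz_self] at h5
    refine h5.congr_deriv ?_
    have := hne W hW
    field_simp
    ring
  · have h4 : HasDerivAt φ (φ1 (N W / M W)) (N (rez W z (W z).re) / M (rez W z (W z).re)) := by
      rw [rez_self]
      exact h1 W hW
    have h5 : HasDerivAt φ1 (φ2 (N W / M W)) (N (rez W z (W z).re) / M (rez W z (W z).re)) := by
      rw [rez_self]
      exact h2 W hW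
    have k1 := h4.comp (W z).re (hu W hW)
    have k2 := h5.comp (W z).re (hu W hW)
    have k3 := (k2.fun_mul (hN.ht W hW)).fun_add
      ((k1.fun_sub ((hu W hW).fun_mul k2)).fun_mul (hM.ht W hW))
    simp only [Function.comp_apply, rez_self, smul_eq_mul] at k3
    refine k3.congr_deriv ?_
    rw [smul_eq_mul]
    have := hne W hW
    have : (W z).im ≠ 0 := (hW z).ne
    field_simp
    ring

/-- the absorption of another site -/
theorem ab_ne (A : Matrix ι ι ℝ) {x z : ι} (hx : x ≠ z) :
    HasGen A z (fun W => -(W x).im) (fun _ => 0) (fun _ => 0) (fun _ => 0) where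
  hv W hW := by
    simp only [rez_of_ne W hx, smul_zero]
    exact hasDerivAt_const _ _
  he W hW := by
    simp only [imz_of_ne W hx]
    exact hasDerivAt_const _ _
  ht W hW := by
    rw [smul_zero, add_zero]
    exact hasDerivAt_const _ _
  cp := cab x
  ct := continuousOn_const
  ce := continuousOn_const
  cl := continuousOn_const

/-- the absorption of the site itself -/
theorem ab_self (A : Matrix ι ι ℝ) (z : ι) :
    HasGen A z (fun W => -(W z).im) (fun _ => 0) (fun _ => 1) (fun W => -(-(W z).im)) where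
  hv W hW := by
    simp only [rez_at_im, smul_zero]
    exact hasDerivAt_const _ _
  he W hW := by
    simp only [imz_at_im, neg_neg]
    exact hasDerivAt_id _
  ht W hW := by
    have h : (1 : ℝ) + (-(W z).im)⁻¹ • (-(-(W z).im)) = 0 := by
      rw [smul_eq_mul]
      have : (W z).im ≠ 0 := (hW z).ne
      field_simp
      ring
    rw [h]
    exact hasDerivAt_const _ _
  cp := cab z
  ct := continuousOn_const
  ce := continuousOn_const
  cl := (cab z).neg

end HasGen

/-! ### complex valued functionals -/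

namespace HasGen

variable {z : ι} {Ψ th de ll : (ι → ℂ) → ℂ}

/-- squared modulus -/
theorem normSq (hA : A.IsSymm) (h : HasGen A z Ψ th de ll) :
    HasGen A z (fun W => ‖Ψ W‖ ^ 2) (fun W => 2 * (conj (Ψ W) * th W).re)
      (fun W => 2 * (conj (Ψ W) * de W).re)
      (fun W => 2 * (conj (Ψ W) * ll W).re +
        4 * (-(W z).im) * mm A W z * ‖th W‖ ^ 2) := by
  have key : ∀ (f : ℝ → ℂ) (f' : ℂ) (x : ℝ), HasDerivAt f f' x →
      HasDerivAt (fun u => ‖f u‖ ^ 2) (2 * (conj (f x) * f').re) x := by
    intro f f' x hf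
    have h1 := hf.norm_sq
    rw [Complex.inner] at h1
    rw [mul_comm (conj (f x)) f']
    exact h1
  have key2 : ∀ (f g : ℝ → ℂ) (f' g' : ℂ) (x : ℝ), HasDerivAt f f' x → HasDerivAt g g' x →
      HasDerivAt (fun u => 2 * (conj (f u) * g u).re)
        (2 * (conj f' * g x + conj (f x) * g').re) x := by
    intro f g f' g' x hf hg
    have h1 : HasDerivAt (fun u => conj (f u)) (conj f') x := hf.star
    have h2 := h1.fun_mul hg
    have h3 := (Complex.reCLM.hasFDerivAt.comp_hasDerivAt x h2).const_mul 2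
    exact h3
  refine
  { hv := fun W hW => ?_
    he := fun W hW => ?_
    ht := fun W hW => ?_
    cp := h.cp.norm.pow 2
    ct := ?_
    ce := ?_
    cl := ?_ }
  · have h1 := key _ _ _ (h.hv W hW)
    simp only [rez_self] at h1
    refine h1.congr_deriv ?_
    rw [smul_eq_mul, Complex.real_smul, mul_left_comm, Complex.re_ofReal_mul]
    ring
  · have h1 := key _ _ _ (h.he W hW)
    simp only [imz_self] at h1
    exact h1
  · have h1 := key2 _ _ _ _ _ (h.hv W hW) (h.ht W hW)
    simp only [rez_self] at h1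
    refine h1.congr_deriv ?_
    have e1 : conj ((2 * mm A W z) • th W) * th W = (((2 * mm A W z) * ‖th W‖ ^ 2 : ℝ) : ℂ) := by
      rw [Complex.real_smul, map_mul, Complex.conj_ofReal, mul_assoc, mul_comm (conj (th W)),
        Complex.mul_conj, Complex.normSq_eq_norm_sq]
      push_cast
      ring
    have e2 : conj (Ψ W) * (de W + (-(W z).im)⁻¹ • ll W) =
        conj (Ψ W) * de W + (((-(W z).im)⁻¹ : ℝ) : ℂ) * (conj (Ψ W) * ll W) := by
      rw [Complex.real_smul]
      ring
    rw [Complex.add_re, e1, e2, Complex.add_re, Complex.ofReal_re, Complex.re_ofReal_mul,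
      smul_eq_mul]
    have : (W z).im ≠ 0 := (hW z).ne
    field_simp
    ring
  · exact continuousOn_const.mul (Complex.continuous_re.comp_continuousOn
      ((Complex.continuous_conj.comp_continuousOn h.cp).mul h.ct))
  · exact continuousOn_const.mul (Complex.continuous_re.comp_continuousOn
      ((Complex.continuous_conj.comp_continuousOn h.cp).mul h.ce))
  · exact (continuousOn_const.mul (Complex.continuous_re.comp_continuousOn
      ((Complex.continuous_conj.comp_continuousOn h.cp).mul h.cl))).add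
      (((continuousOn_const.mul (cab z)).mul (Cts_mmOn hA z)).mul (h.ct.norm.pow 2))

/-- **the resolvent** -/
theorem gr (hA : A.IsSymm) (z a b : ι) :
    HasGen A z (fun W => Gr A W a b)
      (fun W => -(Gr A W a z * Gr A W z b) / (2 * (mm A W z : ℂ)))
      (fun W => I * (Gr A W a z * Gr A W z b)) (fun _ => 0) := by
  have cG : ∀ a b : ι, ContinuousOn (fun W => Gr A W a b) (Hm ι) := fun a b W hW =>
    (P365L.FIN.continuousAt_Gr hA hW a b).continuousWithinAt
  have hm : ∀ W ∈ Hm ι, (2 * (mm A W z : ℂ)) ≠ 0 := fun W hW =>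
    mul_ne_zero two_ne_zero (Complex.ofReal_ne_zero.2 (mm_pos hA hW z).ne')
  -- derivative along the real line
  have hR : ∀ a b : ι, ∀ W ∈ Hm ι, HasDerivAt (fun u : ℝ => Gr A (rez W z u) a b)
      (-(Gr A W a z * Gr A W z b)) (W z).re := by
    intro a b W hW
    have hd : ∀ x, HasDerivAt (fun u : ℝ => rez W z u x) (if x = z then (1 : ℂ) else 0)
        (W z).re := by
      intro x
      by_cases hx : x = z
      · subst hx
        simp only [rez_at, if_true]
        exact (Complex.ofRealCLM.hasDerivAt (x := (W x).re)).add_const _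
      · simp only [rez_of_ne W hx, if_neg hx]
        exact hasDerivAt_const _ _
    have h1 := J376.hasDerivAt_Gr hA hd (by rw [rez_self]; exact hW) a b
    simp only [rez_self] at h1
    refine h1.congr_deriv ?_
    rw [Finset.sum_eq_single z]
    · simp
    · intro y _ hy
      simp [hy]
    · intro h
      exact absurd (Finset.mem_univ z) h
  have hI : ∀ a b : ι, ∀ W ∈ Hm ι, HasDerivAt (fun t : ℝ => Gr A (imz W z t) a b)
      (I * (Gr A W a z * Gr A W z b)) (-(W z).im) := by
    intro a b W hW
    have hd : ∀ x, HasDerivAt (fun t : ℝ => imz W z t x) (if x = z then (-I : ℂ) else 0)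
        (-(W z).im) := by
      intro x
      by_cases hx : x = z
      · subst hx
        simp only [imz_at, if_true]
        have h1 := ((Complex.ofRealCLM.hasDerivAt (x := -(W x).im)).mul_const I).const_sub
          ((W x).re : ℂ)
        refine h1.congr_deriv ?_
        simp
      · simp only [imz_of_ne W hx, if_neg hx]
        exact hasDerivAt_const _ _
    have h1 := J376.hasDerivAt_Gr hA hd (by rw [imz_self]; exact hW) a b
    simp only [imz_self] at h1
    refine h1.congr_deriv ?_
    rw [Finset.sum_eq_single z]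
    · simp
      ring
    · intro y _ hy
      simp [hy]
    · intro h
      exact absurd (Finset.mem_univ z) h
  refine
  { hv := fun W hW => ?_
    he := fun W hW => hI a b W hW
    ht := fun W hW => ?_
    cp := cG a b
    ct := ?_
    ce := continuousOn_const.mul ((cG a z).mul (cG z b))
    cl := continuousOn_const }
  · refine (hR a b W hW).congr_deriv ?_
    rw [Complex.real_smul]
    push_cast
    have hm1 : (mm A W z : ℂ) ≠ 0 := Complex.ofReal_ne_zero.2 (mm_pos hA hW z).ne'
    rw [mul_div_assoc', mul_div_cancel_left₀ _ (hm W hW)]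
  · have hmm : HasDerivAt (fun u : ℝ => ((mm A (rez W z u) z : ℝ) : ℂ))
        (((-(Gr A W z z * Gr A W z z)).im : ℝ) : ℂ) (W z).re := by
      have h1 := Complex.imCLM.hasFDerivAt.comp_hasDerivAt (W z).re (hR z z W hW)
      exact h1.ofReal_comp
    have h2 := ((hR a z W hW).fun_mul (hR z b W hW)).fun_neg.fun_div (hmm.const_mul 2)
      (by rw [rez_self]; exact hm W hW)
    simp only [rez_self] at h2
    refine h2.congr_deriv ?_
    rw [smul_zero, add_zero]
    have hm1 : (mm A W z : ℂ) ≠ 0 := Complex.ofReal_ne_zero.2 (mm_pos hA hW z).ne'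
    have e1 : (((-(Gr A W z z * Gr A W z z)).im : ℝ) : ℂ) =
        -(2 * ((Gr A W z z).re : ℂ) * (mm A W z : ℂ)) := by
      rw [Complex.neg_im, Complex.mul_im]
      unfold mm
      push_cast
      ring
    have e2 : Gr A W z z = ((Gr A W z z).re : ℂ) + (mm A W z : ℂ) * I :=
      (Complex.re_add_im _).symm
    rw [e1, div_eq_iff (pow_ne_zero 2 (hm W hW))]
    have e3 : Gr A W z z - ((Gr A W z z).re : ℂ) = (mm A W z : ℂ) * I := by
      rw [sub_eq_iff_eq_add']
      exact e2
    linear_combination (4 * (Gr A W a z * Gr A W z b) * (mm A W z : ℂ)) * e3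
  · exact ((cG a z).mul (cG z b)).neg.div
      (continuousOn_const.mul (Complex.continuous_ofReal.comp_continuousOn (Cts_mmOn hA z)))
      hm

end HasGen

end Vale.Agent.P365.T2.H789
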