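import Vale.Agent.P365.T2.H789.Gen
import Vale.Agent.P365.T2.PathB963
import Vale.Agent.P365.T2.SmoothS755
import Vale.Agent.P365.V4.FlowLoss548b
import Mathlib.MeasureTheory.Integral.IntegralEqImproper

/-!
# P365-T2, X-GEN2: the exact flow of a functional with a generator, product law, labels, path.

`-e_z E[de_z Ψ] = E[LL_z Ψ] + e_z E[∫ ρ'(v) th dv]` and
`d/dτ Av Ψ = Av ∑_x om_x (LL_x Ψ + e_x ∫ ρ_x' th_x)`, `om_x = e^{-τ} w_x / e_x`.
-/

set_option linter.all false

namespace Vale.Agent.P365.T2.H789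

open P365L P365O P365T1 Matrix Complex MeasureTheory Filter Topology Set
open Vale.Agent.P365.J376 P365L.T2.Path
open scoped ComplexConjugate

/-! ### laws with a `C¹` density -/

/-- the law `ν` has the `C¹` density `ρ` with derivative `ρ'`, carried by `[-L, L]` -/
structure C1Law (ν : Measure ℝ) (ρ ρ' : ℝ → ℝ) (L : ℝ) : Prop where
  int : ∀ g : ℝ → ℝ, ∫ v, g v ∂ν = ∫ v, ρ v * g v
  hd : ∀ v, HasDerivAt ρ (ρ' v) v
  cd : Continuous ρ'
  off : ∀ v, L < |v| → ρ v = 0
  supp : ν (Icc (-L) L)ᶜ = 0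

theorem continuous_of_hasDerivAt {ρ ρ' : ℝ → ℝ} (h : ∀ v, HasDerivAt ρ (ρ' v) v) :
    Continuous ρ := continuous_iff_continuousAt.2 fun v => (h v).continuousAt

theorem C1Law.off' {ν : Measure ℝ} {ρ ρ' : ℝ → ℝ} {L : ℝ} (h : C1Law ν ρ ρ' L) (v : ℝ)
    (hv : L < |v|) : ρ' v = 0 := by
  have h1 : ∀ᶠ u in 𝓝 v, ρ u = 0 := by
    have h2 : ∀ᶠ u in 𝓝 v, L < |u| :=
      (continuous_abs.continuousAt).eventually (lt_mem_nhds hv)
    filter_upwards [h2] with u hu
    exact h.off u hu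
  have h3 : HasDerivAt ρ 0 v := (hasDerivAt_const v (0 : ℝ)).congr_of_eventuallyEq h1
  exact (h.hd v).unique h3

theorem hasCompactSupport_mul {f g : ℝ → ℝ} {L : ℝ} (hf : ∀ v, L < |v| → f v = 0) :
    HasCompactSupport fun v => f v * g v := by
  refine HasCompactSupport.intro (K := Icc (-L) L) isCompact_Icc fun v hv => ?_
  have : L < |v| := by
    by_contra hc
    push Not at hc
    exact hv (abs_le.1 hc)
  rw [hf v this, zero_mul]

/-- integration by parts against the density -/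
theorem C1Law.ibp {ν : Measure ℝ} {ρ ρ' : ℝ → ℝ} {L : ℝ} (h : C1Law ν ρ ρ' L)
    {a a' : ℝ → ℝ} (ha : ∀ v, HasDerivAt a (a' v) v) (hc : Continuous a') :
    ∫ v, a' v ∂ν = -∫ v, ρ' v * a v := by
  have c1 := continuous_of_hasDerivAt h.hd
  have c2 := continuous_of_hasDerivAt ha
  rw [h.int]
  refine integral_mul_deriv_eq_deriv_mul_of_integrable (fun v _ => h.hd v) (fun v _ => ha v) ?_ ?_ ?_
  · exact (c1.mul hc).integrable_of_hasCompactSupport (hasCompactSupport_mul h.off)
  · exact (h.cd.mul c2).integrable_of_hasCompactSupport (hasCompactSupport_mul h.off')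
  · exact (c1.mul c2).integrable_of_hasCompactSupport (hasCompactSupport_mul h.off)

theorem C1Law.integral_deriv {ν : Measure ℝ} {ρ ρ' : ℝ → ℝ} {L : ℝ} (h : C1Law ν ρ ρ' L) :
    ∫ v, ρ' v = 0 := by
  have h1 := h.ibp (a := fun _ => (1 : ℝ)) (a' := fun _ => 0) (fun v => hasDerivAt_const v 1)
    continuous_const
  simp only [integral_zero, mul_one] at h1
  linarith

theorem C1Law.integrable {ν : Measure ℝ} [IsFiniteMeasure ν] {ρ ρ' : ℝ → ℝ} {L : ℝ}
    (h : C1Law ν ρ ρ' L) {g : ℝ → ℝ} (hg : Continuous g) : Integrable g ν := by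
  obtain ⟨C, hC⟩ := (isCompact_Icc (a := -L) (b := L)).exists_bound_of_continuousOn
    hg.continuousOn
  refine Integrable.mono' (integrable_const C) hg.aestronglyMeasurable ?_
  have h1 : ∀ᵐ t ∂ν, t ∈ Icc (-L) L := by
    rw [ae_iff]
    exact h.supp
  filter_upwards [h1] with v hv
  exact hC v hv

/-- derivative of the smooth density -/
noncomputable def drhoS (a l v : ℝ) : ℝ :=
  (2 * (a - l))⁻¹ * (Bump.rhoB 0 l (v + (a - l)) - Bump.rhoB 0 l (v - (a - l)))

theorem c1Law_nuS {lam l : ℝ} (hl : 0 < l) (h : l < lam) :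
    C1Law (nuS lam l) (rhoS lam l) (drhoS lam l) lam := by
  have hz : ∀ v, lam < |v| → rhoS lam l v = 0 := by
    intro v hv
    rw [rhoS, muc]
    have : ∫ c in Icc (-(lam - l)) (lam - l), Bump.rhoB c l v = 0 := by
      rw [setIntegral_congr_fun (g := fun _ => (0 : ℝ)) measurableSet_Icc]
      · simp
      · intro c hc
        refine Bump.rhoB_eq_zero hl ?_
        intro h1
        rcases lt_abs.1 hv with h2 | h2
        · linarith [h1.2, hc.2]
        · linarith [h1.1, hc.1]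
    rw [this, mul_zero]
  refine ⟨fun g => ?_, fun v => ?_, ?_, hz, ?_⟩
  · rw [integral_nuS hl h, muv]
    refine setIntegral_eq_integral_of_forall_compl_eq_zero fun v hv => ?_
    have : lam < |v| := by
      by_contra hc
      push Not at hc
      exact hv (abs_le.1 hc)
    rw [hz v this, zero_smul]
  · have hPB : ∀ x, HasDerivAt (Smooth755.PB l) (Bump.rhoB 0 l x) x := by
      intro x
      exact intervalIntegral.integral_hasDerivAt_right (Smooth755.intB l 0 x)
        ((Bump.continuous_rhoB 0 l).stronglyMeasurableAtFilter _ _)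
        (Bump.continuous_rhoB 0 l).continuousAt
    have e : rhoS lam l = fun v =>
        (2 * (lam - l))⁻¹ * (Smooth755.PB l (v + (lam - l)) - Smooth755.PB l (v - (lam - l))) :=
      funext fun v => Smooth755.rhoS_eq_PB h.le v
    rw [e]
    have h1 := (hPB (v + (lam - l))).comp_add_const v (lam - l)
    have h2 := (hPB (v - (lam - l))).comp_sub_const v (lam - l)
    exact (h1.sub h2).const_mul _
  · unfold drhoS
    exact (((Bump.continuous_rhoB 0 l).comp (continuous_id.add continuous_const)).sub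
      ((Bump.continuous_rhoB 0 l).comp (continuous_id.sub continuous_const))).const_mul _
  · rw [nuS, muv]
    rw [withDensity_apply _ measurableSet_Icc.compl]
    rw [Measure.restrict_restrict measurableSet_Icc.compl, Set.compl_inter_self,
      Measure.restrict_empty, lintegral_zero_measure]

/-! ### one site -/

section site

variable {ι : Type*} [Fintype ι] [DecidableEq ι] {A : Matrix ι ι ℝ}
  {z : ι} {Ψ th de ll : (ι → ℂ) → ℝ}

/-- the law error of a functional with angular derivative `th` (per unit of absorption) -/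
noncomputable def ErrS (E : ℝ) (ρ' : ℝ → ℝ) (th : (ι → ℂ) → ℝ) (z : ι) (W : ι → ℂ) : ℝ :=
  ∫ v, ρ' v * th (rez W z (v - E))

theorem HasGen.hasDerivAt_th (h : HasGen A z Ψ th de ll) {W : ι → ℂ} (hW : W ∈ Hm ι) (E v : ℝ) :
    HasDerivAt (fun v : ℝ => th (rez W z (v - E)))
      (de (rez W z (v - E)) + (-(W z).im)⁻¹ * ll (rez W z (v - E))) v := by
  have h1 := h.ht _ (rez_mem hW z (v - E))
  simp only [rez_rez, rez_at_re, rez_at_im, smul_eq_mul] at h1
  exact h1.comp_sub_const v E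

theorem continuous_line {G : (ι → ℂ) → ℝ} (hG : ContinuousOn G (Hm ι)) {W : ι → ℂ}
    (hW : W ∈ Hm ι) (z : ι) (E : ℝ) : Continuous fun v : ℝ => G (rez W z (v - E)) :=
  hG.comp_continuous ((continuous_rez W z).comp (continuous_id.sub continuous_const))
    fun v => rez_mem hW z _

/-- **one site, any law with a `C¹` density**:
`-e ∫ de dν = ∫ ll dν + e ∫ ρ' th` -/
theorem HasGen.one_site (h : HasGen A z Ψ th de ll) {ν : Measure ℝ} [IsFiniteMeasure ν]
    {ρ ρ' : ℝ → ℝ} {L : ℝ} (hν : C1Law ν ρ ρ' L) {W : ι → ℂ} (hW : W ∈ Hm ι) (E : ℝ) :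
    -((-(W z).im) * ∫ v, de (rez W z (v - E)) ∂ν) =
      ∫ v, ll (rez W z (v - E)) ∂ν + (-(W z).im) * ErrS E ρ' th z W := by
  have c1 := continuous_line h.ce hW z E
  have c2 := continuous_line h.cl hW z E
  have h1 := hν.ibp (fun v => h.hasDerivAt_th hW E v) (c1.add (c2.const_mul _))
  rw [integral_add (hν.integrable c1) ((hν.integrable c2).const_mul _), integral_const_mul] at h1
  have h2 : (W z).im ≠ 0 := (hW z).ne
  unfold ErrS
  have h3 : (-(W z).im) * (∫ v, de (rez W z (v - E)) ∂ν +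
      (-(W z).im)⁻¹ * ∫ v, ll (rez W z (v - E)) ∂ν) =
      (-(W z).im) * -∫ v, ρ' v * th (rez W z (v - E)) := by rw [h1]
  have h4 : (-(W z).im) * ((-(W z).im)⁻¹ * ∫ v, ll (rez W z (v - E)) ∂ν) =
      ∫ v, ll (rez W z (v - E)) ∂ν := by
    rw [← mul_assoc, mul_inv_cancel₀ (neg_ne_zero.2 h2), one_mul]
  rw [mul_add, h4] at h3
  linarith

/-! ### product law -/

/-- integrability of the law error -/
theorem integrable_ErrS (h : HasGen A z Ψ th de ll) {m : ι → Measure ℝ}
    [∀ x, IsProbabilityMeasure (m x)] {R : ℝ} (hR : ∀ x, m x (Icc (-R) R)ᶜ = 0)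
    {ρ ρ' : ℝ → ℝ} {L : ℝ} (hν : C1Law (m z) ρ ρ' L) {E : ℝ} {e : ι → ℝ} (he : ∀ x, 0 < e x) :
    Integrable (fun v => ErrS E ρ' th z (WV E e v)) (Measure.pi m) := by
  have hmp := MAff.measurePreserving_resample m z
  have i1 : Integrable (fun v => ∫ t, de (WV E e (Function.update v z t)) ∂(m z))
      (Measure.pi m) :=
    (hmp.integrable_comp_of_integrable
      (integrable_of_continuousOn (G := de) h.ce hR he)).integral_prod_left
  have i2 : Integrable (fun v => ∫ t, ll (WV E e (Function.update v z t)) ∂(m z))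
      (Measure.pi m) :=
    (hmp.integrable_comp_of_integrable
      (integrable_of_continuousOn (G := ll) h.cl hR he)).integral_prod_left
  refine ((i1.neg.sub (i2.const_mul (e z)⁻¹))).congr (Eventually.of_forall fun v => ?_)
  have h1 := h.one_site hν (W := WV E e v) (WV_neg he v) E
  have h2 : -(WV E e v z).im = e z := by rw [WV_eq_Wp, J376.Wp_im, neg_neg]
  rw [h2] at h1
  simp only [Pi.sub_apply, Pi.neg_apply, WV_update]
  have h3 := (he z).ne'
  field_simp
  linarith

/-- **one site under the product law** -/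
theorem HasGen.glob (h : HasGen A z Ψ th de ll) {m : ι → Measure ℝ}
    [∀ x, IsProbabilityMeasure (m x)] {R : ℝ} (hR : ∀ x, m x (Icc (-R) R)ᶜ = 0)
    {ρ ρ' : ℝ → ℝ} {L : ℝ} (hν : C1Law (m z) ρ ρ' L) {E : ℝ} {e : ι → ℝ} (he : ∀ x, 0 < e x) :
    -(e z * Ex m E e de) = Ex m E e ll + e z * Ex m E e (ErrS E ρ' th z) := by
  have hmp := MAff.measurePreserving_resample m z
  have r1 := Ex_resample (G := de) h.ce hR (E := E) he z
  have r2 := Ex_resample (G := ll) h.cl hR (E := E) he z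
  have i2 : Integrable (fun v => ∫ t, ll (WV E e (Function.update v z t)) ∂(m z))
      (Measure.pi m) :=
    (hmp.integrable_comp_of_integrable
      (integrable_of_continuousOn (G := ll) h.cl hR he)).integral_prod_left
  have i3 := integrable_ErrS h hR hν (E := E) he
  rw [r1, r2]
  unfold Ex
  rw [← integral_const_mul, ← integral_const_mul, ← integral_neg, ← integral_add i2
    (i3.const_mul _)]
  congr 1
  funext v
  have h1 := h.one_site hν (W := WV E e v) (WV_neg he v) E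
  have h2 : -(WV E e v z).im = e z := by rw [WV_eq_Wp, J376.Wp_im, neg_neg]
  rw [h2] at h1
  simp only [WV_update]
  exact h1

end site

/-! ### labels and the path of a stage -/

section path

variable {ι : Type*} [Fintype ι] [DecidableEq ι] {A : Matrix ι ι ℝ}
  {Λ : Type*} [Fintype Λ] {p : Λ → ℝ} {ν : Λ → Measure ℝ} {E : ℝ}

/-- main part of the derivative: average of `∑ om_x LL_x Ψ`, `om_x = w_x / e_x` -/
noncomputable def GenG (p : Λ → ℝ) (ν : Λ → Measure ℝ) (E : ℝ) (e w : (ι → Λ) → ι → ℝ)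
    (ll : (ι → Λ) → ι → (ι → ℂ) → ℝ) : ℝ :=
  ∑ l : ι → Λ, (∏ x, p (l x)) *
    ∑ x, w l x / e l x * Ex (fun x => ν (l x)) E (e l) (ll l x)

/-- law error of the derivative: average of `∑ w_x ∫ ρ_x' th_x` -/
noncomputable def ErrT (p : Λ → ℝ) (ν : Λ → Measure ℝ) (E : ℝ) (ρ' : Λ → ℝ → ℝ)
    (e w : (ι → Λ) → ι → ℝ) (th : (ι → Λ) → ι → (ι → ℂ) → ℝ) : ℝ :=
  ∑ l : ι → Λ, (∏ x, p (l x)) *
    ∑ x, w l x * Ex (fun x => ν (l x)) E (e l) (ErrS E (ρ' (l x)) (th l x) x)

/-- **MASTER IDENTITY**: `d/dτ Av Ψ = Av ∑ om_x LL_x Ψ + Av ∑ om_x e_x ∫ ρ_x' th_x` -/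
theorem hasDerivAt_AvG_gen {Ψ : (ι → Λ) → (ι → ℂ) → ℝ}
    {th de ll : (ι → Λ) → ι → (ι → ℂ) → ℝ}
    (hΨ : ∀ l, ContDiffOn ℝ 1 (Ψ l) (LH ι)) [∀ k, IsProbabilityMeasure (ν k)] {R : ℝ}
    (hR : ∀ k, ν k (Icc (-R) R)ᶜ = 0) {u w : (ι → Λ) → ι → ℝ} (hu : ∀ l x, 0 < u l x)
    (hw : ∀ l x, 0 ≤ w l x) {ρ ρ' : Λ → ℝ → ℝ} {L : Λ → ℝ}
    (hρ : ∀ l x, w l x ≠ 0 → C1Law (ν (l x)) (ρ (l x)) (ρ' (l x)) (L (l x)))
    (hg : ∀ l x, w l x ≠ 0 → HasGen A x (Ψ l) (th l x) (de l x) (ll l x)) (τ : ℝ) :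
    HasDerivAt (fun τ => AvG p ν E (eT u w τ) Ψ)
      (GenG p ν E (eT u w τ) (wT w τ) ll + ErrT p ν E ρ' (eT u w τ) (wT w τ) th) τ := by
  have h := hasDerivAt_AvG_stage (p := p) (ν := ν) (E := E) hΨ hR hu hw τ
  have hpos : ∀ l x, 0 < eT u w τ l x := fun l x => by
    have := mul_nonneg (Real.exp_pos (-τ)).le (hw l x)
    unfold eT
    linarith [hu l x]
  refine HasDerivAt.congr_deriv h ?_
  unfold AvG GenG ErrT
  rw [← Finset.sum_neg_distrib, ← Finset.sum_add_distrib]
  refine Finset.sum_congr rfl fun l _ => ?_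
  rw [← mul_neg, ← mul_add]
  congr 1
  have hEx : Ex (fun x => ν (l x)) E (fun x => u l x + Real.exp (-τ) * w l x)
      (fun W => ∑ x, Real.exp (-τ) * w l x * dI (Ψ l) x W) =
      ∑ x, Real.exp (-τ) * w l x * Ex (fun x => ν (l x)) E (eT u w τ l) (dI (Ψ l) x) := by
    unfold Ex
    rw [integral_finset_sum]
    · exact Finset.sum_congr rfl fun x _ => integral_const_mul _ _
    · intro x _
      exact (integrable_of_continuousOn (continuousOn_dI (hΨ l) x) (fun x => hR (l x))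
        (hpos l)).const_mul _
  rw [hEx, ← Finset.sum_neg_distrib, ← Finset.sum_add_distrib]
  refine Finset.sum_congr rfl fun x _ => ?_
  by_cases hx : w l x = 0
  · unfold wT
    rw [hx]
    simp
  have hgx := hg l x hx
  have h1 : Ex (fun x => ν (l x)) E (eT u w τ l) (dI (Ψ l) x) =
      Ex (fun x => ν (l x)) E (eT u w τ l) (de l x) := by
    unfold Ex
    congr 1
    funext v
    exact dI_eq (hΨ l) (WV_mem_LH (hpos l) v) (hgx.he _ (WV_mem_LH (hpos l) v))
  have h2 := hgx.glob (m := fun x => ν (l x)) (fun x => hR (l x)) (hρ l x hx) (E := E) (hpos l)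
  rw [h1]
  have h3 : wT w τ l x = Real.exp (-τ) * w l x := rfl
  have h4 := (hpos l x).ne'
  rw [← h3]
  have h5 : wT w τ l x / eT u w τ l x * Ex (fun x => ν (l x)) E (eT u w τ l) (ll l x) =
      wT w τ l x / eT u w τ l x * (-(eT u w τ l x * Ex (fun x => ν (l x)) E (eT u w τ l) (de l x)) -
        eT u w τ l x * Ex (fun x => ν (l x)) E (eT u w τ l) (ErrS E (ρ' (l x)) (th l x) x)) := by
    rw [h2]
    ring
  rw [h5]
  field_simp
  ring

end path

end Vale.Agent.P365.T2.H789
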